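import Vale.Agent.P301.R2.H396.Pencil

/-! P301, dimensions 4 and 6: pencils without fixed divisor. If `L` is a line bundle with
`c₁(L) ≠ 0` on an irreducible holomorphic symplectic Kähler manifold, preserved by a parabolic
automorphism, or nef and isotropic with a closed positive current with zero Lelong numbers in
`c₁(L)`, then in dimension 4 the power `L^(50!)` has two algebraically independent sections without
common divisor; the same for `L^(357!)` in dimension 6 if the classes of the effective divisors are
multiples of `c₁(L)`. For all limits of such pairs `h⁰(L^(K m)) ≥ m + 1`. -/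

open scoped Manifold ContDiff ComplexOrder Topology
open Filter Vale.Agent.P272.K Vale.Agent.P301.H599 Vale.Agent.P301.H99
open Vale.Agent.P301.R2.H396

namespace Vale.Agent.Results.P301.MobilePencils

/-- (1) Let `X` be a compact simply connected Kähler manifold of dimension 4 with a holomorphic
symplectic form generating `H⁰(X, Ω²)`, that is, an irreducible holomorphic symplectic Kähler
manifold, and `L` a line bundle on `X` with `c₁(L) ≠ 0` such that (`IsPairNZ`): `L` is preserved by a
parabolic automorphism `F`, that is `F^* c₁(L) = c₁(L)` and `(F^* - 1)² [w] = c [curvature of L]`,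
`c > 0`, for a Kähler metric `w`; or `L` is nef, `c₁(L)^4 = 0`, and `c₁(L)` contains a closed positive
current all of whose Lelong numbers are zero. Then `L^(50!)` has two algebraically independent
sections without common divisor (`HasPencil`), and `h⁰(X, L^(50! m)) ≥ m + 1` for all `m`
(`HasGrowth`).

(2) The same in dimension 6 for `L^(357!)`, if moreover the class of every line bundle on `X` with a
nonzero section is a real multiple of `c₁(L)` (`IsPairOnly`).

(3) Let `(X, L)`, `X` a compact complex manifold of dimension 4, `L` a line bundle, be a limit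
(`IsLimit`) of pairs `(Y n, M n)` as in (1): in homeomorphisms `X ≃ Y n`, charts and transition
functions of `(Y n, M n)` converge locally uniformly to charts and transition functions of
`(X, L)`. Then `h⁰(X, L^(50! m)) ≥ m + 1` for all `m`.

(4) The same in dimension 6 for limits of pairs as in (2) and `L^(357! m)`. -/
theorem result :
    (∀ (X : Type) [TopologicalSpace X] [T2Space X] [CompactSpace X] [SimplyConnectedSpace X]
      [ChartedSpace (Cm 4) X] [IsManifold 𝓘(ℂ, Cm 4) ω X]
      (ι : Type) (L : LineBundle 4 X ι), IsPairNZ L →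
      HasPencil L (Nat.factorial 50) ∧ HasGrowth L (Nat.factorial 50)) ∧
    (∀ (X : Type) [TopologicalSpace X] [T2Space X] [CompactSpace X] [SimplyConnectedSpace X]
      [ChartedSpace (Cm 6) X] [IsManifold 𝓘(ℂ, Cm 6) ω X]
      (ι : Type) (L : LineBundle 6 X ι), IsPairOnly L →
      HasPencil L (Nat.factorial 357) ∧ HasGrowth L (Nat.factorial 357)) ∧
    (∀ (X : Type) [TopologicalSpace X] [T2Space X] [CompactSpace X]
      [ChartedSpace (Cm 4) X] [IsManifold 𝓘(ℂ, Cm 4) ω X]
      (ι : Type) (L : LineBundle 4 X ι)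
      (Y : ℕ → Type) [∀ n, TopologicalSpace (Y n)] [∀ n, T2Space (Y n)]
      [∀ n, CompactSpace (Y n)] [∀ n, SimplyConnectedSpace (Y n)]
      [∀ n, ChartedSpace (Cm 4) (Y n)] [∀ n, IsManifold 𝓘(ℂ, Cm 4) ω (Y n)]
      (κ : ℕ → Type) (M : ∀ n, LineBundle 4 (Y n) (κ n)),
      (∀ n, IsPairNZ (M n)) → IsLimit L Y κ M → HasGrowth L (Nat.factorial 50)) ∧
    (∀ (X : Type) [TopologicalSpace X] [T2Space X] [CompactSpace X]
      [ChartedSpace (Cm 6) X] [IsManifold 𝓘(ℂ, Cm 6) ω X]
      (ι : Type) (L : LineBundle 6 X ι)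
      (Y : ℕ → Type) [∀ n, TopologicalSpace (Y n)] [∀ n, T2Space (Y n)]
      [∀ n, CompactSpace (Y n)] [∀ n, SimplyConnectedSpace (Y n)]
      [∀ n, ChartedSpace (Cm 6) (Y n)] [∀ n, IsManifold 𝓘(ℂ, Cm 6) ω (Y n)]
      (κ : ℕ → Type) (M : ∀ n, LineBundle 6 (Y n) (κ n)),
      (∀ n, IsPairOnly (M n)) → IsLimit L Y κ M → HasGrowth L (Nat.factorial 357)) := by
  refine ⟨?_, ?_, ?_, ?_⟩
  · intro X _ _ _ _ _ _ ι L hL
    have h := hasPencil_of_mobile hL.hasMobilePair
    exact ⟨h, h.growth⟩
  · intro X _ _ _ _ _ _ ι L hL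
    have h := hasPencil_of_mobile hL.hasMobilePair
    exact ⟨h, h.growth⟩
  · intro X _ _ _ _ _ ι L Y _ _ _ _ _ _ κ M hM hlim m
    obtain ⟨N, ⟨C⟩⟩ := hlim
    exact C.r_sec fun k => (hasPencil_of_mobile (hM k).hasMobilePair).growth m
  · intro X _ _ _ _ _ ι L Y _ _ _ _ _ _ κ M hM hlim m
    obtain ⟨N, ⟨C⟩⟩ := hlim
    exact C.r_sec fun k => (hasPencil_of_mobile (hM k).hasMobilePair).growth m

end Vale.Agent.Results.P301.MobilePencils
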