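import Vale.Agent.P301.R2.H676.Six

/-! P301, dimension 6: a dichotomy. If `L` is a line bundle with `c₁(L) ≠ 0` on an irreducible
holomorphic symplectic Kähler manifold of dimension 6, preserved by a parabolic automorphism, or nef
and isotropic with a closed positive current with zero Lelong numbers in `c₁(L)`, then `L` itself has
a nonzero section, or `L^(357!)` has two algebraically independent sections without common divisor.
The same dichotomy holds for all limits of such pairs. There is no condition on the other line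
bundles of `X`. -/

open scoped Manifold ContDiff ComplexOrder Topology
open Filter Vale.Agent.P272.K Vale.Agent.P301.H599 Vale.Agent.P301.H99
open Vale.Agent.P301.R2.H396

namespace Vale.Agent.Results.P301.SixfoldDichotomy

/-- (1) Let `X` be a compact simply connected Kähler manifold of dimension 6 with a holomorphic
symplectic form generating `H⁰(X, Ω²)`, that is, an irreducible holomorphic symplectic Kähler
manifold, and `L` a line bundle on `X` with `c₁(L) ≠ 0` such that (`IsPairNZ`): `L` is preserved by a
parabolic automorphism `F`, that is `F^* c₁(L) = c₁(L)` and `(F^* - 1)² [w] = c [curvature of L]`,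
`c > 0`, for a Kähler metric `w`; or `L` is nef, `c₁(L)^6 = 0`, and `c₁(L)` contains a closed positive
current all of whose Lelong numbers are zero. Then `L` has a nonzero section, or `L^(357!)` has two
algebraically independent sections without common divisor (`HasPencil`) and
`h⁰(X, L^(357! m)) ≥ m + 1` for all `m` (`HasGrowth`).

(2) Let `(X, L)`, `X` a compact complex manifold of dimension 6, `L` a line bundle, be a limit
(`IsLimit`) of pairs `(Y n, M n)` as in (1): in homeomorphisms `X ≃ Y n`, charts and transition
functions of `(Y n, M n)` converge locally uniformly to charts and transition functions of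
`(X, L)`. Then `L` has a nonzero section, or `h⁰(X, L^(357! m)) ≥ m + 1` for all `m`. -/
theorem result :
    (∀ (X : Type) [TopologicalSpace X] [T2Space X] [CompactSpace X] [SimplyConnectedSpace X]
      [ChartedSpace (Cm 6) X] [IsManifold 𝓘(ℂ, Cm 6) ω X]
      (ι : Type) (L : LineBundle 6 X ι), IsPairNZ L →
      (∃ f : ι → X → ℂ, Sec L 1 f ∧ ∃ i x, x ∈ L.U i ∧ f i x ≠ 0) ∨
        (HasPencil L (Nat.factorial 357) ∧ HasGrowth L (Nat.factorial 357))) ∧
    (∀ (X : Type) [TopologicalSpace X] [T2Space X] [CompactSpace X]
      [ChartedSpace (Cm 6) X] [IsManifold 𝓘(ℂ, Cm 6) ω X]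
      (ι : Type) (L : LineBundle 6 X ι)
      (Y : ℕ → Type) [∀ n, TopologicalSpace (Y n)] [∀ n, T2Space (Y n)]
      [∀ n, CompactSpace (Y n)] [∀ n, SimplyConnectedSpace (Y n)]
      [∀ n, ChartedSpace (Cm 6) (Y n)] [∀ n, IsManifold 𝓘(ℂ, Cm 6) ω (Y n)]
      (κ : ℕ → Type) (M : ∀ n, LineBundle 6 (Y n) (κ n)),
      (∀ n, IsPairNZ (M n)) → IsLimit L Y κ M →
      (∃ f : ι → X → ℂ, Sec L 1 f ∧ ∃ i x, x ∈ L.U i ∧ f i x ≠ 0) ∨
        HasGrowth L (Nat.factorial 357)) := by
  refine ⟨?_, ?_⟩
  · intro X _ _ _ _ _ _ ι L hL
    rcases Vale.Agent.P301.R2.H676.pair_six hL with h | ⟨f, hf, hne⟩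
    · exact Or.inr ⟨hasPencil_of_mobile h, (hasPencil_of_mobile h).growth⟩
    · exact Or.inl ⟨f, ⟨hf.holo, hf.change⟩, hne⟩
  · intro X _ _ _ _ _ ι L Y _ _ _ _ _ _ κ M hM hlim
    exact Vale.Agent.P301.R2.H676.limit_six hM hlim

end Vale.Agent.Results.P301.SixfoldDichotomy
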