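import Vale.Agent.P301.R2.H256.Main

/-! P301: a criterion for the Kodaira dimension of an arbitrary nef isotropic line bundle on an
irreducible holomorphic symplectic manifold of any dimension, in terms of tensors and forms with
values in the powers of the line bundle. -/

open scoped Manifold ContDiff ComplexOrder Topology
open Filter Vale.Agent.P272.K Vale.Agent.P301.H599 Vale.Agent.P301.R2.H256

namespace Vale.Agent.Results.P301.TwistedForms

/-- Let `X` be a compact simply connected Kähler manifold of dimension `d` with a holomorphic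
symplectic form generating `H⁰(X, Ω²)`, that is, an irreducible holomorphic symplectic Kähler
manifold, and `L` a line bundle on `X` which is nef, with `c₁(L)^d = 0` (that is, isotropic) and
`c₁(L) ≠ 0`. No further hypothesis.

(1) Some positive power of `L` has two linearly independent sections if and only if for some `p`
and `m` there are linearly independent holomorphic covariant `p`-tensors with values in `L^m` whose
values are linearly dependent at every point of `X`.

(2) In this case some positive power of `L` has two linearly independent sections without common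
divisor.

(3) Dichotomy: either some positive power of `L` has two linearly independent sections without
common divisor, or for all `p` and `m` there are at most `d ^ p` linearly independent holomorphic
covariant `p`-tensors with values in `L^m`, and at most `binom(d, p)` linearly independent
holomorphic `p`-forms with values in `L^m`.

(4) Some positive power of `L` has a nonzero section if and only if for some `p` there are nonzero
holomorphic covariant `p`-tensors with values in `L^m` for arbitrarily large `m`. -/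
theorem result (d : ℕ) (X : Type) [TopologicalSpace X] [T2Space X] [CompactSpace X]
    [SimplyConnectedSpace X] [ChartedSpace (Cm d) X] [IsManifold 𝓘(ℂ, Cm d) ω X]
    (w s : Chart d X → Cm d → Matrix (Fin d) (Fin d) ℂ) (hs : IsSymplectic d X w s)
    (ι : Type) (L : LineBundle d X ι) (ρ : ι → X → ℝ) (hρ : IsMetric L ρ)
    (hL : IsNefIsotropic w L ρ) :
    ((∃ k : ℕ, 0 < k ∧ ∃ f g : ι → X → ℂ, Sec L k f ∧ Sec L k g ∧ Indep2 L f g) ↔
      ∃ (p m r : ℕ) (σ : Fin r → ι → Chart d X → Cm d → (Fin p → Fin d) → ℂ),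
        (∀ b, IsTensor L p m (σ b)) ∧ Independent L σ ∧ PointwiseDependent L σ) ∧
    ((∃ k : ℕ, 0 < k ∧ ∃ f g : ι → X → ℂ, Sec L k f ∧ Sec L k g ∧ Indep2 L f g) →
      ∃ k : ℕ, 0 < k ∧ ∃ f g : ι → X → ℂ, Sec L k f ∧ Sec L k g ∧ Indep2 L f g ∧
        NoCommonDivisor L f g) ∧
    ((∃ k : ℕ, 0 < k ∧ ∃ f g : ι → X → ℂ, Sec L k f ∧ Sec L k g ∧ Indep2 L f g ∧
        NoCommonDivisor L f g) ∨
      ∀ p m : ℕ,
        (∀ σ : Fin (d ^ p + 1) → ι → Chart d X → Cm d → (Fin p → Fin d) → ℂ,
          (∀ b, IsTensor L p m (σ b)) → ¬ Independent L σ) ∧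
        ∀ σ : Fin (d.choose p + 1) → ι → Chart d X → Cm d → (Fin p → Fin d) → ℂ,
          (∀ b, IsTwistedForm L p m (σ b)) → ¬ Independent L σ) ∧
    ((∃ k : ℕ, 0 < k ∧ ∃ f : ι → X → ℂ, Sec L k f ∧ ∃ i x, x ∈ L.U i ∧ f i x ≠ 0) ↔
      ∃ p : ℕ, ∀ N : ℕ, ∃ (m : ℕ) (σ : ι → Chart d X → Cm d → (Fin p → Fin d) → ℂ), N ≤ m ∧
        IsTensor L p m σ ∧ ∃ i e x, At e x ∧ x ∈ L.U i ∧ ∃ I, σ i e (e x) I ≠ 0) := by
  have key : ∀ (p m r : ℕ) (σ : Fin r → ι → Chart d X → Cm d → (Fin p → Fin d) → ℂ),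
      (∀ b, IsTensor L p m (σ b)) → Independent L σ → PointwiseDependent L σ →
      ∃ k : ℕ, 0 < k ∧ ∃ f g : ι → X → ℂ, Sec L k f ∧ Sec L k g ∧ Indep2 L f g ∧
        NoCommonDivisor L f g := by
    intro p m r σ h1 h2 h3
    obtain ⟨k, hk, f, g, hf, hg, hi, hn⟩ := mobile_of_dependent hs hρ hL h1 h2 h3
    exact ⟨k, hk, f, g, ⟨hf.holo, hf.change⟩, ⟨hg.holo, hg.change⟩, hi, hn⟩
  refine ⟨⟨?_, ?_⟩, ?_, ?_, ⟨?_, ?_⟩⟩
  · rintro ⟨k, -, f, g, hf, hg, hi⟩
    exact dependent_of_two hf hg hi
  · rintro ⟨p, m, r, σ, h1, h2, h3⟩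
    obtain ⟨k, hk, f, g, hf, hg, hi, -⟩ := key p m r σ h1 h2 h3
    exact ⟨k, hk, f, g, hf, hg, hi⟩
  · rintro ⟨k, -, f, g, hf, hg, hi⟩
    obtain ⟨p, m, r, σ, h1, h2, h3⟩ := dependent_of_two hf hg hi
    exact key p m r σ h1 h2 h3
  · by_cases hc : ∃ k : ℕ, 0 < k ∧ ∃ f g : ι → X → ℂ, Sec L k f ∧ Sec L k g ∧ Indep2 L f g ∧
        NoCommonDivisor L f g
    · exact Or.inl hc
    refine Or.inr fun p m => ⟨fun σ h1 h2 => hc ?_, fun σ h1 h2 => hc ?_⟩
    · exact key p m _ σ h1 h2 fun i e x hx hi =>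
        ten_dependent (Nat.lt_succ_self _) (fun b => σ b i e (e x))
    · exact key p m _ σ (fun b => (h1 b).1) h2 fun i e x hx hi =>
        alt_dependent (Nat.lt_succ_self _) (fun b => σ b i e (e x))
          fun b τ I => (h1 b).2 i e x hx hi τ I
  · rintro ⟨k, hk, f, hf, hne⟩
    exact tensors_of_sec hk hf hne
  · rintro ⟨p, hp⟩
    obtain ⟨k, hk, f, h1, h2, h3⟩ := sec_of_tensors hs hρ hL hp
    exact ⟨k, hk, f, ⟨h1, h2⟩, h3⟩

end Vale.Agent.Results.P301.TwistedForms
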