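import Vale.Agent.P301.R2.H169.Main

/-! P301: a line bundle preserved by a parabolic automorphism of an irreducible holomorphic
symplectic manifold has an invariant singular metric with semipositive curvature, vanishing
Lelong numbers and trivial multiplier ideals. -/

open scoped Manifold ContDiff ComplexOrder Topology
open Filter MeasureTheory Vale.Agent.P272.K Vale.Agent.P301.H599

namespace Vale.Agent.Results.P301.ZeroLelong

/-- Let `X` be a compact connected complex manifold of any dimension `d` with a Kähler metric `w`
and a holomorphic symplectic form `s` generating `H⁰(X, Ω²)` (for instance an irreducible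
holomorphic symplectic Kähler manifold), `L` a holomorphic line bundle on `X` with smooth Hermitian
metric `ρ`, and `F` an automorphism of `X` with `F^* c₁(L) = c₁(L)` and
`(F^* - 1)² [w] = c [curvature of L]`, `c > 0`. Then `c₁(L)` contains a closed positive current `T`,
given by plurisubharmonic weights `ψ` of a singular metric on `L`, such that: (1) all Lelong numbers
of the weights, at all points, are zero; (2) for every `m > 0` the function `exp (-m ψ)` is
integrable over the compact subsets of the charts, so the multiplier ideals of all `m ψ` are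
trivial; (3) every nonempty closed set `K` with `F(K) ⊆ K`, for instance every periodic orbit and
every invariant subvariety, contains a point at which the weights are finite; (4) `T` is invariant
under `F`: the weights `ψ j ∘ F` and `ψ i` differ, where both are defined, by functions `p` which
are smooth with `i∂∂̄p = 0`. -/
theorem result :
    ∀ (d : ℕ) (X : Type) [TopologicalSpace X] [T2Space X] [CompactSpace X] [ConnectedSpace X]
      [ChartedSpace (Cm d) X] [IsManifold 𝓘(ℂ, Cm d) ω X]
      (w s : Chart d X → Cm d → Matrix (Fin d) (Fin d) ℂ), IsSymplectic d X w s →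
      ∀ (ι : Type) (L : LineBundle d X ι) (ρ : ι → X → ℝ), IsMetric L ρ →
      ∀ (F : Auto d X) (c : ℝ), 0 < c → SameClass (pull F (curvature L ρ)) (curvature L ρ) →
      SameClass (fun e z => pull F (pull F w) e z - (2 : ℂ) • pull F w e z + w e z)
        (fun e z => (c : ℂ) • curvature L ρ e z) →
      ∃ ψ : ι → X → EReal, IsPshMetric L ψ ∧
        (∀ i (e : Chart d X) x, At e x → x ∈ L.U i →
          lelong (fun z => ψ i (e.symm z)) (e x) = 0) ∧
        (∀ (m : ℝ) i (e : Chart d X) (K : Set (Cm d)), 0 < m → e ∈ atlas (Cm d) X →
          IsCompact K → K ⊆ e.target ∩ e.symm ⁻¹' L.U i →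
          ∫⁻ z in K, EReal.exp (-((m : EReal) * ψ i (e.symm z))) < ⊤) ∧
        (∀ K : Set X, IsClosed K → K.Nonempty → (∀ x ∈ K, F x ∈ K) →
          ∃ i, ∃ x ∈ K ∩ L.U i, ψ i x ≠ ⊥) ∧
        ∀ i j x, x ∈ L.U i → F x ∈ L.U j → ∃ p : X → ℝ,
          (∀ᶠ y in 𝓝 x, ψ j (F y) = ψ i y + (p y : EReal)) ∧
          ∀ e : Chart d X, At e x → ∀ᶠ z in 𝓝 (e x),
            ContDiffAt ℝ ∞ (fun y => p (e.symm y)) z ∧ ddc p e z = 0 :=
  fun d X _ _ _ _ _ _ w s hs ι L ρ hρ F c hc hθ hdd =>
    Vale.Agent.P301.R2.H169.main d X w s hs ι L ρ hρ F c hc hθ hdd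

end Vale.Agent.Results.P301.ZeroLelong
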